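import Vale.Agent.P063R21.Main

/-!
# P063: the Friedgut–Kalai threshold-width conjecture for the random graph and hypergraph
-/

set_option autoImplicit false

namespace Vale.Agent.Results.P063.ARandomGraph

open MeasureTheory Vale.Agent.P063 Vale.Agent.P063R

universe u

theorem result :
    -- (0) the random hypergraph exists, and `μ_p(P)` is the probability that it lies in `P`
    (∀ (n r : ℕ) (p : unitInterval), IsRandom (law n r p) p (fun x => x) ∧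
      ∀ (Ω : Type u) [MeasurableSpace Ω] (ν : Measure Ω) (X : Ω → Edge n r → Bool),
        IsRandom ν p X → ∀ P : Set (Edge n r → Bool),
          MeasurableSet {ω | X ω ∈ P} ∧ ν.real {ω | X ω ∈ P} = muH P p) ∧
    -- (1) `p_a(P)` is attained, `W_ε(n)` is a maximum; graphs are the case `r = 2`
    (∀ n r : ℕ, r ≤ n →
      (∀ P : Set (Edge n r → Bool), Admissible P → ∀ a : ℝ, 0 < a → a < 1 →
        ∃ p : unitInterval, 0 < p ∧ p < 1 ∧ pc (muH P) a = p ∧ muH P p = a) ∧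
      ∀ ε : ℝ, IsGreatest (widthsH r n ε) (W r n ε)) ∧
    (∀ (n : ℕ) (ε : ℝ), widthsG n ε = widthsH 2 n ε) ∧
    -- (2) Q1
    (∀ ε : ℝ, 0 < ε → ε < 1 / 2 → ∃ c C : ℝ, 0 < c ∧ 0 < C ∧
      (∀ n : ℕ, 2 ≤ n → (∀ P : Set (SimpleGraph (Fin n)), H868.GraphProperty P →
        wd (muG P) ε ≤ C / Real.log n ^ 2) ∧ W 2 n ε ≤ C / Real.log n ^ 2) ∧
      ∃ n0 : ℕ, ∀ n : ℕ, n0 ≤ n → c / Real.log n ^ 2 ≤ W 2 n ε) ∧
    -- (3) Q2
    (∀ r : ℕ, 2 ≤ r → ∀ ε : ℝ, 0 < ε → ε < 1 / 2 → ∃ C : ℝ, ∀ n : ℕ, r ≤ n →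
      ∀ P : Set (Edge n r → Bool), Admissible P →
        wd (muH P) ε ≤ C * Real.log n ^ (-((r : ℝ) / ((r : ℝ) - 1)))) ∧
    -- (4) the order of `W_ε(n)` jointly in `n` and `ε`
    (∀ r : ℕ, 2 ≤ r → ∃ c C : ℝ, 0 < c ∧ 0 < C ∧
      (∀ n : ℕ, r ≤ n → ∀ ε : ℝ, 0 < ε → ε < 1 / 2 → W r n ε ≤
        C * min 1 (Real.log ((1 - ε) / ε) * Real.log n ^ (-((r : ℝ) / ((r : ℝ) - 1))))) ∧
      ∃ n0 : ℕ, ∀ n : ℕ, n0 ≤ n → ∀ ε : ℝ, 0 < ε → ε < 1 / 2 →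
        c * min 1 (Real.log ((1 - ε) / ε) * Real.log n ^ (-((r : ℝ) / ((r : ℝ) - 1))))
          ≤ W r n ε) :=
  ⟨fun _ _ p => ⟨isRandom_law p, fun _ _ _ _ h P => prob_eq h P⟩,
    fun _ _ h => ⟨fun _ hP _ h0 h1 => pc_spec hP h0 h1, greatest h⟩, widths_eq,
    fun _ e0 e1 => q1 e0 e1, fun _ hr _ e0 e1 => q2 hr e0 e1, fun _ hr => order hr⟩

end Vale.Agent.Results.P063.ARandomGraph
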